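import Vale.Agent.P156.H849.Averaged

open MeasureTheory Filter Topology Vale.Agent.P156

/-- Energy averaged bulk universality for the uniform random `d`-regular graph, every `d ≥ 3`:
for all continuous compactly supported `f_1, …, f_m` and every bounded continuous `Φ`, the
difference between the expectations of `Φ` of the linear statistics of the unfolded point measure
at energy `E` and of the unfolded GOE point measure tends to zero in `L¹(dE)` on the whole bulk. -/
theorem Vale.Agent.Results.P156.Averaged.result :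
    ∀ d : ℕ, 3 ≤ d →
    ∀ (m : ℕ) (f : Fin m → ℝ → ℝ), (∀ j, Continuous (f j)) → (∀ j, HasCompactSupport (f j)) →
    ∀ Φ : (Fin m → ℝ) → ℝ, Continuous Φ → (∃ C : ℝ, ∀ x, |Φ x| ≤ C) →
    Tendsto (fun n : ℕ => ∫ E in Set.Ioo (-(2 * Real.sqrt (d - 1))) (2 * Real.sqrt (d - 1)),
        |avgGraph n d E f Φ - avgGOE n f Φ|)
      (atTop ⊓ 𝓟 {n : ℕ | d < n ∧ Even (n * d)}) (𝓝 0) :=
  fun _ hd => H849.target hd
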