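import Vale.Agent.P156.FE.Unc

open MeasureTheory Filter Topology Vale.Agent.P156

/-- Bulk universality at every fixed energy for the uniform random `d`-regular graph, every
`d ≥ 3`: for every bulk energy `E`, all continuous compactly supported `f_1, …, f_m` and every
bounded continuous `Φ`, the difference between the expectations of `Φ` of the linear statistics of
the unfolded point measure at `E` and of the unfolded GOE point measure tends to zero, as
`n → ∞` through all `n > d` with `n d` even. -/
theorem Vale.Agent.Results.P156.FixedEnergy.result :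
    ∀ d : ℕ, 3 ≤ d →
    ∀ E : ℝ, -(2 * Real.sqrt (d - 1)) < E → E < 2 * Real.sqrt (d - 1) →
    ∀ (m : ℕ) (f : Fin m → ℝ → ℝ), (∀ j, Continuous (f j)) → (∀ j, HasCompactSupport (f j)) →
    ∀ Φ : (Fin m → ℝ) → ℝ, Continuous Φ → (∃ C : ℝ, ∀ x, |Φ x| ≤ C) →
    Tendsto (fun n : ℕ => avgGraph n d E f Φ - avgGOE n f Φ)
      (atTop ⊓ 𝓟 {n : ℕ | d < n ∧ Even (n * d)}) (𝓝 0) :=
  fun _ hd => FE.targetFixed hd
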