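import Vale.Agent.P156.H849.Fixed

open MeasureTheory Filter Topology Vale.Agent.P156

/-- **Bulk GOE universality at every fixed bulk energy, for random `d`-regular graphs of every
fixed degree `d ≥ 3`.**  There is one random locally finite point measure `Ξ` on the line such
that the unfolded GOE point measures converge in law to `Ξ` (vague topology: joint convergence in
law of all linear statistics of continuous compactly supported functions) and such that for every
`d ≥ 3` and every `E` in the open bulk the unfolded point measure at `E` of the uniform random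
`d`-regular graph converges in law to the same `Ξ`, through all `n > d` with `nd` even. -/
theorem Vale.Agent.Results.P156.Universality.result :
    ∃ (Ω : Type) (_ : MeasurableSpace Ω) (P : Measure Ω) (Ξ : Ω → Measure ℝ),
      IsProbabilityMeasure P ∧ Measurable Ξ ∧
      (∀ ω, IsLocallyFiniteMeasure (Ξ ω) ∧
        ∃ (κ : Set ℕ) (z : κ → ℝ), Ξ ω = Measure.sum fun k => Measure.dirac (z k)) ∧
      ∀ (m : ℕ) (f : Fin m → ℝ → ℝ), (∀ j, Continuous (f j)) → (∀ j, HasCompactSupport (f j)) →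
      ∀ Φ : (Fin m → ℝ) → ℝ, Continuous Φ → (∃ C : ℝ, ∀ x, |Φ x| ≤ C) →
        Tendsto (fun n : ℕ => avgGOE n f Φ) atTop (𝓝 (∫ ω, Φ (fun j => ∫ x, f j x ∂(Ξ ω)) ∂P)) ∧
        ∀ d : ℕ, 3 ≤ d → ∀ E : ℝ, |E| < 2 * Real.sqrt (d - 1) →
          Tendsto (fun n : ℕ => avgGraph n d E f Φ) (atTop ⊓ 𝓟 {n : ℕ | d < n ∧ Even (n * d)})
            (𝓝 (∫ ω, Φ (fun j => ∫ x, f j x ∂(Ξ ω)) ∂P)) := by
  obtain ⟨P, Ξ, h⟩ := H9.goeBulk_exists
  exact ⟨ℕ → EReal, inferInstance, P, Ξ, h.prob, h.meas, fun ω => ⟨h.locFin ω, h.point ω⟩,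
    fun m f hf hfc Φ hΦ hC => ⟨h.lim m f hf hfc Φ hΦ hC, fun d hd E hE =>
      h.graph (H849.targetFixed hd) hE f hf hfc Φ hΦ hC⟩⟩
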